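import Vale.Agent.Lib.P013.Jac

/-!
P013, hand-in: Jacobsthal's function for integers whose prime factors beyond a slowly growing bound
have reciprocal sum at most 1/2.
-/

namespace Vale.Agent.Results.P013.ThinPrimes

open Classical in
theorem result :
    -- (1) explicit bound
    (∀ (n y : ℕ) (σ : ℝ), 0 < n → σ < 1 →
      ∑ p ∈ n.primeFactors.filter (fun p => y < p), 1 / (p : ℝ) ≤ σ →
      ∀ x : ℤ, ∃ i : ℕ, i < 4 ^ y * (⌊3 * (n.primeFactors.card : ℝ) / (1 - σ)⌋₊ + 1) ∧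
        IsCoprime (x + i) (n : ℤ)) ∧
    -- (2) Jacobsthal's bound
    (∀ (n y : ℕ) (σ : ℝ), 0 < n → σ < 1 → 4 ^ y ≤ n.primeFactors.card →
      ∑ p ∈ n.primeFactors.filter (fun p => y < p), 1 / (p : ℝ) ≤ σ →
      ∀ x : ℤ, ∃ i : ℕ, (i : ℝ) < (3 / (1 - σ) + 1) * (n.primeFactors.card : ℝ) ^ 2 ∧
        IsCoprime (x + i) (n : ℤ)) ∧
    -- (3) a linear bound for integers composed of primes of a set with convergent reciprocal sum
    (∀ S : Set ℕ, Summable (fun p : ℕ => if p ∈ S then 1 / (p : ℝ) else 0) →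
      ∃ C : ℕ, ∀ n : ℕ, 0 < n → (∀ p ∈ n.primeFactors, p ∈ S) →
        ∀ x : ℤ, ∃ i : ℕ, i < C * (n.primeFactors.card + 1) ∧ IsCoprime (x + i) (n : ℤ)) := by
  refine ⟨?_, ?_, fun S hS => Vale.Agent.P013.jac_summable S hS⟩
  · intro n y σ hn hσ hs x
    obtain ⟨i, hi, hc⟩ := Vale.Agent.P013.jac n y hn σ hσ hs x
    exact ⟨i, lt_of_lt_of_le hi (Nat.mul_le_mul_right _ (primorial_le_four_pow y)), hc⟩
  · intro n y σ hn hσ hy hs x
    obtain ⟨i, hi, hc⟩ := Vale.Agent.P013.jac n y hn σ hσ hs x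
    refine ⟨i, ?_, hc⟩
    have h1 : primorial y ≤ n.primeFactors.card := (primorial_le_four_pow y).trans hy
    have h2 : 1 ≤ n.primeFactors.card := le_trans (Nat.one_le_pow _ _ (by norm_num)) hy
    have h2' : (1:ℝ) ≤ n.primeFactors.card := by exact_mod_cast h2
    have h3 : (i : ℝ) < ((n.primeFactors.card *
        (⌊3 * (n.primeFactors.card : ℝ) / (1 - σ)⌋₊ + 1) : ℕ) : ℝ) := by
      exact_mod_cast lt_of_lt_of_le hi (Nat.mul_le_mul_right _ h1)
    refine lt_of_lt_of_le h3 ?_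
    have h4 : (0:ℝ) < 1 - σ := by linarith
    have h5 : ((⌊3 * (n.primeFactors.card : ℝ) / (1 - σ)⌋₊ : ℕ) : ℝ) ≤
        3 * (n.primeFactors.card : ℝ) / (1 - σ) := Nat.floor_le (by positivity)
    have h6 : (3 / (1 - σ) + 1) * (n.primeFactors.card : ℝ) ^ 2 =
        n.primeFactors.card * (3 * (n.primeFactors.card : ℝ) / (1 - σ) + n.primeFactors.card) := by
      ring
    rw [h6, Nat.cast_mul, Nat.cast_add, Nat.cast_one]
    refine mul_le_mul_of_nonneg_left ?_ (Nat.cast_nonneg _)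
    linarith

end Vale.Agent.Results.P013.ThinPrimes
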